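import Vale.Agent.P235Z.Final

/-! P235: `c₁` is bounded for planar graphs, for graphs of bounded treewidth, and for all clique sums,
along cliques of any size, of planar graphs, graphs without `K₅` minor and graphs of bounded
treewidth. -/

namespace Vale.Agent.Results.P235.APlanarTreewidthSums

open Vale.Agent.P235 Vale.Agent.P235.H134 Vale.Agent.P235.K5

/-- (1) There is an absolute constant `C` with `c₁(G) ≤ C` for all finite connected planar `G`.
(2) For every `k` there is `C` with `c₁(G) ≤ C` for all finite connected `G` of treewidth at most `k`.
(3) There is an absolute constant `A`, and for every `k` a constant `C`, such that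
(a) `c₁(G) ≤ C` for every finite connected spanning subgraph `G` of a graph `H` that is glued, one
piece after another, along cliques with at most `m` vertices (`m` is arbitrary, `C` does not depend on
it) from pieces each of which is planar, or has no `K₅` minor, or has treewidth at most `k`;
(b) `c₁(G) ≤ A (C + log (t + 2))` if deleting at most `t` vertices of the finite connected graph `G`
leaves components as in (a). -/
theorem result :
    (∃ C : ℝ, ∀ (V : Type) [Finite V] (G : SimpleGraph V), G.Connected → Planar G →
      DistortionLE G C) ∧
    (∀ k : ℕ, ∃ C : ℝ, ∀ (V : Type) [Finite V] (G : SimpleGraph V), G.Connected →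
      TreewidthLE G k → DistortionLE G C) ∧
    (∃ A : ℝ, ∀ k : ℕ, ∃ C : ℝ,
      (∀ (m : ℕ) (V : Type) [Finite V] (G H : SimpleGraph V), G.Connected → G ≤ H →
        CliqueSum m (fun _ B _ => Planar B ∨ ¬ IsMinor (⊤ : SimpleGraph (Fin 5)) B ∨
          TreewidthLE B k) H → DistortionLE G C) ∧
      ∀ (t : ℕ) (V : Type) [Finite V] (G : SimpleGraph V) (S : Set V), G.Connected →
        S.ncard ≤ t →
        (∀ u ∉ S, ∃ (m : ℕ) (H : SimpleGraph (compSet G S u)), G.induce (compSet G S u) ≤ H ∧
          CliqueSum m (fun _ B _ => Planar B ∨ ¬ IsMinor (⊤ : SimpleGraph (Fin 5)) B ∨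
            TreewidthLE B k) H) →
        DistortionLE G (A * (C + Real.log (t + 2)))) :=
  Vale.Agent.P235Z.final

end Vale.Agent.Results.P235.APlanarTreewidthSums
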